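-- RD-BASE 36c88a660182d588318b9f3277eac90a3f1ce4a4
/-
Seat helper226 (P028, full BM, class C1 = PRig): the four subclasses and the assembly.
-/
import Vale.Agent.P028.MathlibUsed
import Vale.Agent.P028.RD.FQ.BMTop
import Vale.Agent.P028.RD.R367.LemHn
attribute [-instance] ProperSMul.toContinuousSMul IsTopologicalTorsor.toContinuousSMul IdemSemiring.toCanonicallyOrderedAdd IdemSemiring.toMulLeftMono IdemSemiring.toMulRightMono AddQuantale.instAddLeftMono AddQuantale.instAddRightMono Quantale.instMulLeftMono Quantale.instMulRightMono FiniteDimensional.rclike_to_real IsScalarTower.complexToReal FiniteDimensional.complexToReal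

/-!
# Class C1 (rest-rigid pairs): subclasses

`D i q` is an arbitrary predicate (the fraction of `q` held at the stage `i` has dropped).
In all four subclasses `r` is NEW at the stage `i`.

* `C1D`: `D i q`;
* `C1I`: not `D i q`, all rest primes are `≤ z_t`, `t = nxs g i r` the next newness of `r`;
* `C1II`: not `D i q`, the largest rest prime `p` is `> z_t` and divides `vR`;
* `C1III`: not `D i q`, the largest rest prime `p` is `> z_t` and divides `uR`.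
-/

namespace Vale.P028.SK

open Finset CF

variable {g : Cfg}

open Classical in
/-- the next newness stage of `r` after `i` (`nst g + 1` if there is none) -/
noncomputable def nxs (g : Cfg) (i r : ℕ) : ℕ :=
  if h : ∃ j, i < j ∧ j ≤ nst g ∧ Nwf g j r then Nat.find h else nst g + 1

theorem lt_nxs {i r : ℕ} (hi : i ≤ nst g) : i < nxs g i r := by
  classical
  unfold nxs
  split_ifs with h
  · exact (Nat.find_spec h).1
  · omega

theorem nxs_le (g : Cfg) (i r : ℕ) : nxs g i r ≤ nst g + 1 := by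
  classical
  unfold nxs
  split_ifs with h
  · have := (Nat.find_spec h).2.1
    omega
  · exact le_rfl

/-- there is no newness of `r` between `i` and `nxs g i r` -/
theorem not_Nwf_of_lt_nxs {i r j : ℕ} (hij : i < j) (hj : j < nxs g i r) : ¬ Nwf g j r := by
  classical
  intro hn
  unfold nxs at hj
  split_ifs at hj with h
  · exact Nat.find_min h hj ⟨hij, by have := (Nat.find_spec h).2.1; omega, hn⟩
  · exact h ⟨j, hij, by omega, hn⟩

theorem Nwf_nxs {i r : ℕ} (h : nxs g i r ≤ nst g) : Nwf g (nxs g i r) r := by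
  classical
  by_cases h1 : ∃ j, i < j ∧ j ≤ nst g ∧ Nwf g j r
  · have e : nxs g i r = Nat.find h1 := by
      unfold nxs
      rw [dif_pos h1]
    rw [e]
    exact (Nat.find_spec h1).2.2
  · exfalso
    have e : nxs g i r = nst g + 1 := by
      unfold nxs
      rw [dif_neg h1]
    omega

/-- the cut of the rests: `max (y(K)) (z_s)` -/
noncomputable def tR (g : Cfg) (i s q r : ℕ) (F G : ℚ) : ℕ :=
  max (yK (zs g) (KS g i q r F G)) (z g s)

/-- the rest of the reduced cofactor on the side of `q` (`u2`) -/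
noncomputable def uR (g : Cfg) (d : ℕ → ℕ → ℝ) (i s q r : ℕ) (F G : ℚ) : ℕ :=
  rst g d (tR g i s q r F G) (BB g i q r F G) q (rcof (z g i) (N g) (kc g q) q r)

/-- the rest of the reduced cofactor on the side of `r` (`v2`) -/
noncomputable def vR (g : Cfg) (d : ℕ → ℕ → ℝ) (i s q r : ℕ) (F G : ℚ) : ℕ :=
  rst g d (tR g i s q r F G) (BB g i q r F G) r (rcof (z g i) (N g) (kc g q) r q)

/-- the data of a rest-rigid pair: fractions `F`, `G`, first change `s` -/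
def TArB (g : Cfg) (d : ℕ → ℕ → ℝ) (i q r : ℕ) (F G : ℚ) (s : ℕ) : Prop :=
  i < s ∧ s ≤ nst g + 1 ∧ Un g i s q F ∧ Un g i s r G ∧
    (s ≤ nst g → (¬ ∃ c, st g s q = some (F, c)) ∨ ¬ ∃ c, st g s r = some (G, c)) ∧
    K0c g ≤ KS g i q r F G ∧
    (uR g d i s q r F G : ℝ) < (KS g i q r F G) ^ (1 / 8 : ℝ) ∧
    (vR g d i s q r F G : ℝ) < (KS g i q r F G) ^ (1 / 8 : ℝ)

/-- rest-rigid T-start of `q`, `r` at the stage `i`, `r` new, with data `F`, `G`, `s` -/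
def TArN (g : Cfg) (d : ℕ → ℕ → ℝ) (i q r : ℕ) (n : ℤ) (F G : ℚ) (s : ℕ) : Prop :=
  TAj g i q r n ∧ Dl g q r ≤ z g i ∧ ¬ Tr g i q r ∧ Nwf g i r ∧ TArB g d i q r F G s

/-- subclass D -/
def C1D (g : Cfg) (D : ℕ → ℕ → Prop) (d : ℕ → ℕ → ℝ) (i q r : ℕ) (n : ℤ) : Prop :=
  D i q ∧ ∃ F G s, TArN g d i q r n F G s

/-- subclass I: all rest primes are at most `z_t`, `t` the next newness of `r` -/
def C1I (g : Cfg) (D : ℕ → ℕ → Prop) (d : ℕ → ℕ → ℝ) (i q r : ℕ) (n : ℤ) : Prop :=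
  ¬ D i q ∧ ∃ F G s, TArN g d i q r n F G s ∧
    ∀ p, p.Prime → p ∣ uR g d i s q r F G * vR g d i s q r F G → p ≤ z g (nxs g i r)

/-- subclass II: the largest rest prime is greater than `z_t` and divides `v2` -/
def C1II (g : Cfg) (D : ℕ → ℕ → Prop) (d : ℕ → ℕ → ℝ) (i q r : ℕ) (n : ℤ) : Prop :=
  ¬ D i q ∧ ∃ F G s, TArN g d i q r n F G s ∧
    ∃ p, p.Prime ∧ z g (nxs g i r) < p ∧ p ∣ vR g d i s q r F G ∧
      ∀ p', p'.Prime → p' ∣ uR g d i s q r F G * vR g d i s q r F G → p' ≤ p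

/-- subclass III: the largest rest prime is greater than `z_t` and divides `u2` -/
def C1III (g : Cfg) (D : ℕ → ℕ → Prop) (d : ℕ → ℕ → ℝ) (i q r : ℕ) (n : ℤ) : Prop :=
  ¬ D i q ∧ ∃ F G s, TArN g d i q r n F G s ∧
    ∃ p, p.Prime ∧ z g (nxs g i r) < p ∧ p ∣ uR g d i s q r F G ∧
      ∀ p', p'.Prime → p' ∣ uR g d i s q r F G * vR g d i s q r F G → p' ≤ p

theorem rst_pos' (g : Cfg) (d : ℕ → ℕ → ℝ) (t B q n : ℕ) : 0 < rst g d t B q n := by
  classical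
  unfold rst
  exact prod_pos fun p hp => pow_pos (Nat.prime_of_mem_primeFactors (mem_filter.1 hp).1).pos _

theorem rst_dvd (g : Cfg) (d : ℕ → ℕ → ℝ) (t B q : ℕ) {n : ℕ} (hn : n ≠ 0) :
    rst g d t B q n ∣ n :=
  ⟨omt g d t B q n, by rw [mul_comm]; exact (omt_mul_rst g d t B q hn).symm⟩

theorem uR_pos (d : ℕ → ℕ → ℝ) (i s q r : ℕ) (F G : ℚ) : 0 < uR g d i s q r F G :=
  rst_pos' _ _ _ _ _ _

theorem vR_pos (d : ℕ → ℕ → ℝ) (i s q r : ℕ) (F G : ℚ) : 0 < vR g d i s q r F G :=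
  rst_pos' _ _ _ _ _ _

/-- the data of the class R -/
theorem TAr_iff {d : ℕ → ℕ → ℝ} {i q r : ℕ} {n : ℤ} : TAr g d i q r n ↔
    TAj g i q r n ∧ Dl g q r ≤ z g i ∧ ¬ Tr g i q r ∧ ∃ F G s, TArB g d i q r F G s := by
  constructor
  · rintro ⟨h1, h2, h3, F, G, s, h4, h5, h6, h7, h8, h9, h10⟩
    exact ⟨h1, h2, h3, F, G, s, h4, h5, h6, h7, h8, h9, (max_lt_iff.1 h10).1, (max_lt_iff.1 h10).2⟩
  · rintro ⟨h1, h2, h3, F, G, s, h4, h5, h6, h7, h8, h9, h10, h11⟩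
    exact ⟨h1, h2, h3, F, G, s, h4, h5, h6, h7, h8, h9, max_lt h10 h11⟩

/-- the class R is symmetric -/
theorem TAr.swap (hJ : JsOK g.K g.Js) (hX : g.Js ≤ g.X) (hV : g.V ⊆ Icc 1 (N g))
    {d : ℕ → ℕ → ℝ} {i q r : ℕ} {n : ℤ} (hq : q ∈ g.V) (hr : r ∈ g.V)
    (h : TAr g d i q r n) : TAr g d i r q (-n) := by
  obtain ⟨hT, hD, hTr, F, G, s, h4, h5, h6, h7, h8, h9, h10⟩ := h
  have hz : zs g ≤ z g i := zs_le_z hJ hX i
  have hc : Clean g (z g i) q r := hT.2.2.1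
  have hcomm : KS g i r q G F = KS g i q r F G := max_comm _ _
  have hB := BB_swap g i q r F G
  refine ⟨hT.swap hr, by rw [Dl_swap]; exact hD, fun h' => hTr ((Tr_swap hV hz hq hr hc).1 h'),
    G, F, s, h4, h5, h7, h6, fun hs => (h8 hs).symm, by rw [hcomm]; exact h9, ?_⟩
  rw [hcomm, hB, mrs_swap hV hz hq hr hc]
  exact h10

/-- at a T-start one of the two fractions is new -/
theorem TAj.new {i q r : ℕ} {n : ℤ} (hi : 1 ≤ i) (h : TAj g i q r n) :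
    Nwf g i q ∨ Nwf g i r := by
  obtain ⟨F, b, G, b', h1, h2, -, h4⟩ := start_new hi h
  rcases h4 with h4 | h4
  · exact Or.inl ⟨hi, F, b, h1, h4⟩
  · exact Or.inr ⟨hi, G, b', h2, h4⟩

/-- **the cover of the class R with a new `r`** -/
theorem C1_cover (D : ℕ → ℕ → Prop) {d : ℕ → ℕ → ℝ} {i q r : ℕ} {n : ℤ}
    (h : TAr g d i q r n) (hn : Nwf g i r) :
    C1D g D d i q r n ∨ C1I g D d i q r n ∨ C1II g D d i q r n ∨ C1III g D d i q r n := by
  classical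
  obtain ⟨h1, h2, h3, F, G, s, hB⟩ := TAr_iff.1 h
  have hN : TArN g d i q r n F G s := ⟨h1, h2, h3, hn, hB⟩
  by_cases hD : D i q
  · exact Or.inl ⟨hD, F, G, s, hN⟩
  right
  by_cases hI : ∀ p, p.Prime → p ∣ uR g d i s q r F G * vR g d i s q r F G →
      p ≤ z g (nxs g i r)
  · exact Or.inl ⟨hD, F, G, s, hN, hI⟩
  right
  push Not at hI
  obtain ⟨p0, hp0, hd0, hz0⟩ := hI
  set m := uR g d i s q r F G * vR g d i s q r F G with hm
  have hm0 : m ≠ 0 := (Nat.mul_pos (uR_pos d i s q r F G) (vR_pos d i s q r F G)).ne'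
  have hne : m.primeFactors.Nonempty := ⟨p0, Nat.mem_primeFactors.2 ⟨hp0, hd0, hm0⟩⟩
  obtain ⟨p, hp, hmax⟩ := exists_max_image m.primeFactors id hne
  have hpp := Nat.prime_of_mem_primeFactors hp
  have hpd := Nat.dvd_of_mem_primeFactors hp
  have hzp : z g (nxs g i r) < p :=
    lt_of_lt_of_le hz0 (hmax p0 (Nat.mem_primeFactors.2 ⟨hp0, hd0, hm0⟩))
  have hmax' : ∀ p', p'.Prime → p' ∣ m → p' ≤ p := fun p' h4 h5 =>
    hmax p' (Nat.mem_primeFactors.2 ⟨h4, h5, hm0⟩)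
  rcases (hpp.dvd_mul.1 (hm ▸ hpd)) with h4 | h4
  · exact Or.inr ⟨hD, F, G, s, hN, p, hpp, hzp, h4, hmax'⟩
  · exact Or.inl ⟨hD, F, G, s, hN, p, hpp, hzp, h4, hmax'⟩

/-- **the class R is covered by the four subclasses and their mirror images** -/
theorem EnS_C1_cover (hJ : JsOK g.K g.Js) (hX : g.Js ≤ g.X) (hV : g.V ⊆ Icc 1 (N g))
    {δ : ℕ → ℕ → ℝ} (hδ : Om δ) {S : Finset ℕ} (hS : S ⊆ g.V) (D : ℕ → ℕ → Prop) :
    EnS g S δ (fun q r n => ∃ i ∈ Icc 1 (nst g), TAr g δ i q r n) ≤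
      2 * (EnS g S δ (fun q r n => ∃ i ∈ Icc 1 (nst g), C1D g D δ i q r n) +
      (EnS g S δ (fun q r n => ∃ i ∈ Icc 1 (nst g), C1I g D δ i q r n) +
      (EnS g S δ (fun q r n => ∃ i ∈ Icc 1 (nst g), C1II g D δ i q r n) +
      EnS g S δ (fun q r n => ∃ i ∈ Icc 1 (nst g), C1III g D δ i q r n)))) := by
  set T : ℕ → ℕ → ℤ → Prop := fun q r n => ∃ i ∈ Icc 1 (nst g), TAr g δ i q r n ∧ Nwf g i r
    with hT
  have h1 : EnS g S δ (fun q r n => ∃ i ∈ Icc 1 (nst g), TAr g δ i q r n) ≤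
      EnS g S δ (fun q r n => T q r n ∨ T r q (-n)) := by
    refine EnS_mono g hδ fun q hq r hr n hn hTT => ?_
    obtain ⟨i, hi, h⟩ := hTT
    have hrS := hS (mem_of_mem_erase hr)
    rcases h.1.new (mem_Icc.1 hi).1 with h2 | h2
    · exact Or.inr ⟨i, hi, h.swap hJ hX hV (hS hq) hrS, h2⟩
    · exact Or.inl ⟨i, hi, h, h2⟩
  have h2 := EnS_or g hδ S T (fun q r n => T r q (-n))
  have h3 : EnS g S δ (fun q r n => T r q (-n)) = EnS g S δ T := (EnS_swap S δ T).symm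
  have h4 : EnS g S δ T ≤ EnS g S δ (fun q r n =>
      (∃ i ∈ Icc 1 (nst g), C1D g D δ i q r n) ∨ (∃ i ∈ Icc 1 (nst g), C1I g D δ i q r n) ∨
      (∃ i ∈ Icc 1 (nst g), C1II g D δ i q r n) ∨
      (∃ i ∈ Icc 1 (nst g), C1III g D δ i q r n)) := by
    refine EnS_mono g hδ fun q hq r hr n hn hTT => ?_
    obtain ⟨i, hi, h, h'⟩ := hTT
    rcases C1_cover D h h' with h5 | h5 | h5 | h5
    · exact Or.inl ⟨i, hi, h5⟩
    · exact Or.inr (Or.inl ⟨i, hi, h5⟩)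
    · exact Or.inr (Or.inr (Or.inl ⟨i, hi, h5⟩))
    · exact Or.inr (Or.inr (Or.inr ⟨i, hi, h5⟩))
  have h5 := (EnS_or g hδ S (fun q r n => ∃ i ∈ Icc 1 (nst g), C1D g D δ i q r n)
    (fun q r n => (∃ i ∈ Icc 1 (nst g), C1I g D δ i q r n) ∨
      (∃ i ∈ Icc 1 (nst g), C1II g D δ i q r n) ∨
      (∃ i ∈ Icc 1 (nst g), C1III g D δ i q r n)))
  have h6 := (EnS_or g hδ S (fun q r n => ∃ i ∈ Icc 1 (nst g), C1I g D δ i q r n)
    (fun q r n => (∃ i ∈ Icc 1 (nst g), C1II g D δ i q r n) ∨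
      (∃ i ∈ Icc 1 (nst g), C1III g D δ i q r n)))
  have h7 := (EnS_or g hδ S (fun q r n => ∃ i ∈ Icc 1 (nst g), C1II g D δ i q r n)
    (fun q r n => ∃ i ∈ Icc 1 (nst g), C1III g D δ i q r n))
  rw [h3] at h2
  linarith

/-- the statement of one subclass -/
def PC1 (γ : ℝ) (δ : Cfg → ℕ → ℕ → ℝ)
    (C : (g : Cfg) → (ℕ → ℕ → Prop) → (ℕ → ℕ → ℝ) → ℕ → ℕ → ℕ → ℤ → Prop)
    (D : Cfg → ℕ → ℕ → Prop) : Prop :=
  EvE γ δ (fun g q r n => ∃ i ∈ Icc 1 (nst g), C g (D g) (δ g) i q r n)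

/-- **The four subclasses give the class R.** -/
theorem PRig_of {γ : ℝ} {δ : Cfg → ℕ → ℕ → ℝ} (hδ : ∀ g, Om (δ g)) (D : Cfg → ℕ → ℕ → Prop)
    (h0 : PC1 γ δ C1D D) (h1 : PC1 γ δ C1I D) (h2 : PC1 γ δ C1II D) (h3 : PC1 γ δ C1III D) :
    PRig γ δ := by
  unfold PC1 EvE at h0 h1 h2 h3
  unfold PRig EvE
  refine ((h0.and (h1.and (h2.and h3))).and ev_numOK).mono ?_
  rintro K Js ⟨⟨⟨C₀, X₀, h0⟩, ⟨C₁, X₁, h1⟩, ⟨C₂, X₂, h2⟩, ⟨C₃, X₃, h3⟩⟩, hNum⟩
  refine ⟨2 * (C₀ + (C₁ + (C₂ + C₃))), max 16 (max Js (max X₀ (max X₁ (max X₂ X₃)))), ?_⟩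
  intro g hK hγ hJs hX hA
  simp only [max_le_iff] at hX
  obtain ⟨hX16, hXJ, hX0, hX1, hX2, hX3⟩ := hX
  have hXJ' : g.Js ≤ g.X := by rw [hJs]; exact hXJ
  have hN : NumOK g.K g.Js := by rw [hK, hJs]; exact hNum
  have hVs : g.V ⊆ Icc 1 (N g) := (hA.vt hX16).sub
  have hSV : V1 g ⊆ g.V := fun q hq => (mem_filter.1 (V1_sub g hq)).1
  have h := EnS_C1_cover hN.js hXJ' hVs (hδ g) hSV (D g)
  have g0 := h0 g hK hγ hJs hX0 hA
  have g1 := h1 g hK hγ hJs hX1 hA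
  have g2 := h2 g hK hγ hJs hX2 hA
  have g3 := h3 g hK hγ hJs hX3 hA
  nlinarith

end Vale.P028.SK
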